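import Vale.Agent.P352X.Spec
import Vale.Agent.P352X.Api2c
import Vale.Agent.P352X.Api3

/-!
# P352X, row DD: the wave equation below a null plane (helper24)
-/

set_option linter.all false

noncomputable section

open MeasureTheory Filter Topology Set
open scoped ContDiff

namespace Vale.Agent.P352X.Dd

open Vale.Agent.P352 Vale.Agent.P352.GF Vale.Agent.P352.BW Vale.Agent.P352.H496
open Vale.Agent.P352.H246 (In box)
open Vale.Agent.P352.H755 Vale.Agent.P352X.Ap

/-- the inequality of Cauchy and Schwarz -/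
lemma cs {X : Type*} [MeasurableSpace X] {μ : Measure X} {b u : X → ℂ} (hb : MemLp b 2 μ)
    (hu : MemLp u 2 μ) :
    ‖∫ z, b z * u z ∂μ‖ ≤ √(∫ z, ‖b z‖ ^ 2 ∂μ) * √(∫ z, ‖u z‖ ^ 2 ∂μ) := by
  have h := integral_mul_norm_le_Lp_mul_Lq (μ := μ) (f := b) (g := u) Real.HolderConjugate.two_two
    (by simpa using hb) (by simpa using hu)
  simp only [Real.rpow_two, ← Real.sqrt_eq_rpow] at h
  exact (norm_integral_le_integral_norm _).trans (by simpa only [norm_mul] using h)

/-- the primitive that vanishes at zero -/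
def Ps (φ : ℝ → ℝ) (t : ℝ) : ℝ := ∫ s in t..0, φ s

variable {φ : ℝ → ℝ} {ε : ℝ}

lemma Ps_der (h : Tst φ) (t : ℝ) : HasDerivAt (Ps φ) (-φ t) t := by
  have e : Ps φ = fun t => -∫ s in (0 : ℝ)..t, φ s :=
    funext fun t => intervalIntegral.integral_symm _ _
  rw [e]
  exact (h.1.continuous.integral_hasStrictDerivAt 0 t).hasDerivAt.neg

lemma Ps_smooth (h : Tst φ) : ContDiff ℝ ∞ (Ps φ) :=
  contDiff_infty_iff_deriv.2 ⟨fun t => (Ps_der h t).differentiableAt,
    (funext fun t => (Ps_der h t).deriv : deriv (Ps φ) = fun t => -φ t) ▸ h.1.neg⟩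

lemma Ps_le (h : Tst φ) (t : ℝ) : |Ps φ t| ≤ ∫ s, |φ s| :=
  intervalIntegral.norm_integral_le_integral_norm_uIoc.trans
    (setIntegral_le_integral (cs_int h).norm (.of_forall fun _ => norm_nonneg _))

lemma Ps_one (h : tsupport φ ⊆ Ioo (-ε) 0) {t : ℝ} (ht : t ≤ -ε) : Ps φ t = ∫ s, φ s :=
  intervalIntegral.integral_eq_integral_of_support_subset fun s hs =>
    ⟨ht.trans_lt (h (subset_tsupport _ hs)).1, (h (subset_tsupport _ hs)).2.le⟩

lemma Ps_zero (h : Tst φ) (h' : tsupport φ ⊆ Iio 0) : ∃ d < 0, ∀ t, d < t → Ps φ t = 0 := by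
  obtain ⟨d, h1, h2⟩ : ∃ d < 0, ∀ t, d < t → φ t = 0 := by
    rcases (tsupport φ).eq_empty_or_nonempty with e | e
    · exact ⟨-1, by norm_num, fun t _ => image_eq_zero_of_notMem_tsupport (by simp [e])⟩
    · obtain ⟨d, a1, a2⟩ := h.2.isCompact.exists_isGreatest e
      exact ⟨d, h' a1, fun t ht => image_eq_zero_of_notMem_tsupport fun k => (a2 k).not_gt ht⟩
  refine ⟨d, h1, fun t ht => ?_⟩
  rw [Ps, intervalIntegral.integral_congr (g := fun _ => 0) fun s hs =>
    h2 s ((lt_min ht h1).trans_le hs.1), intervalIntegral.integral_zero]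

/-- the wave operator on `ψ(be) f` -/
lemma box_cut {ψ : ℝ → ℂ} (hψ : ContDiff ℝ ∞ ψ) {f : Fn} (hf : ContDiff ℝ ∞ f) (z : V) :
    box (fun z => ψ (be z) * f z) z = ψ (be z) * box f z + 2 * (deriv ψ (be z) * dv va f z) := by
  have k : ∀ {ψ : ℝ → ℂ} {f : Fn}, ContDiff ℝ ∞ ψ → ContDiff ℝ ∞ f → ∀ h z,
      dv h (fun z => ψ (be z) * f z) z = be h * deriv ψ (be z) * f z + ψ (be z) * dv h f z :=
    fun {ψ f} hψ hf h z => by
      rw [dv_mul (f := fun z => ψ (be z)) ((hψ.comp smooth_be).differentiable (by simp) z)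
        (hf.differentiable (by simp) z), dv_fbe (hψ.differentiable (by simp) _)]
  have hψ' := (contDiff_infty_iff_deriv.1 hψ).2
  have s : ∀ {ψ : ℝ → ℂ} {f : Fn}, ContDiff ℝ ∞ ψ → ContDiff ℝ ∞ f →
      DifferentiableAt ℝ (fun z => ψ (be z) * f z) z := fun hψ hf =>
    ((hψ.comp smooth_be).mul hf).differentiable (by simp) z
  rw [box_eq (f := fun z => ψ (be z) * f z) ((hψ.comp smooth_be).mul hf), box_eq hf]
  simp only [funext (k hψ hf _), be_vb, be_ex, Complex.ofReal_one, Complex.ofReal_zero, one_mul,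
    zero_mul, zero_add]
  rw [dv_add (s hψ' hf) (s hψ (smooth_dv hf _)), k hψ' hf, k hψ (smooth_dv hf _)]
  simp only [k hψ (smooth_dv hf _), be_va, be_ex, Complex.ofReal_zero, zero_mul, zero_add,
    Fin.sum_univ_two]
  ring

/-- the restriction to the null plane -/
def rs (f : Fn) (y : P3) : ℂ := f (pt y.1 0 y.2)

lemma tsupport_rs (f : Fn) : tsupport (rs f) ⊆ (fun y : P3 => pt y.1 0 y.2) ⁻¹' tsupport f :=
  tsupport_comp_subset_preimage f (by fun_prop)

lemma dc_rs {f : Fn} (hf : Dc f) : Dc (rs f) :=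
  cs_of (hf.1.comp (by fun_prop)) (hf.2.isCompact.image cont_pl) fun y hy =>
    image_eq_zero_of_notMem_tsupport (f := f) fun k => hy ⟨_, k, pl_pt _ _ _⟩

lemma da_rs {f : Fn} (hf : Dc f) (y : P3) : fderiv ℝ (rs f) y (1, 0) = rs (dv va f) y := by
  have h1 := ((dc_rs hf).1.differentiable (by simp) y).hasFDerivAt.hasLineDerivAt (1, 0)
  have h2 := hasDerivAt_dv (hf.1.differentiable (by simp)) (pt y.1 0 y.2) va 0
  rw [zero_smul, add_zero] at h2
  refine h1.unique (h2.congr_of_eventuallyEq (.of_forall fun t => congrArg f ?_))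
  exact null_ext (by simp) (by simp) (by simp)

lemma rs_le {h : Fn} (hh : Dc h) : ∃ M, ∀ z, ‖h z - rs h (pl z)‖ ≤ M * |be z| := by
  obtain ⟨M, -, hM⟩ := cs_bd0 (in_dc (in_dv vb (in_univ hh)))
  refine ⟨M, fun z => ?_⟩
  have := convex_univ.norm_image_sub_le_of_norm_hasDerivWithin_le (C := M)
    (fun t _ => (hasDerivAt_dv (hh.1.differentiable (by simp)) (pt (al z) 0 (tx z)) vb
      t).hasDerivWithinAt) (fun t _ => hM _) (mem_univ 0) (mem_univ (be z))
  rwa [zero_smul, add_zero, sub_zero, show pt (al z) 0 (tx z) + be z • vb = z from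
    null_ext (by simp) (by simp) (by simp)] at this

/-- thin layers see only the restriction to the plane -/
lemma thin {b h : Fn} (hb : MemLp b 2) (hh : Dc h) {Φ : ℕ → ℝ → ℝ} (hΦ : ∀ n, Tst (Φ n))
    (h2 : Tendsto (fun n => ∫ t, (t * Φ n t) ^ 2) atTop (𝓝 0)) :
    Tendsto (fun n => ∫ z, b z * (Φ n (be z) * h z - pf (rs h) (cx (Φ n)) z)) atTop (𝓝 0) := by
  obtain ⟨M, hM⟩ := rs_le hh
  have hK := hh.2.isCompact.image cont_pl
  set K := pl '' tsupport h
  have hu : ∀ n, Dc fun z => Φ n (be z) * h z - pf (rs h) (cx (Φ n)) z := fun n =>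
    cs_sub (in_dc (in_rmul ((hΦ n).1.comp smooth_be) (in_univ hh)))
      (dc_pf (dc_rs hh) (dc_cx (hΦ n)))
  have h3 : Tendsto (fun n => √(∫ z, ‖b z‖ ^ 2) *
      √((∫ y, K.indicator (fun _ => M ^ 2) y) * ∫ t, (t * Φ n t) ^ 2)) atTop (𝓝 0) := by
    simpa using (h2.const_mul (∫ y, K.indicator (fun _ => M ^ 2) y)).sqrt.const_mul
      √(∫ z, ‖b z‖ ^ 2)
  refine squeeze_zero_norm (fun n => (cs hb ((hu n).1.continuous.memLp_of_hasCompactSupport
    (hu n).2)).trans (mul_le_mul_of_nonneg_left (Real.sqrt_le_sqrt ?_) (Real.sqrt_nonneg _))) h3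
  rw [← integral_pl_be]
  refine integral_mono_of_nonneg (.of_forall fun _ => by positivity)
    (integrable_pl_be (g := K.indicator fun _ => M ^ 2) (φ := fun t => (t * Φ n t) ^ 2)
      ((integrable_indicator_iff hK.measurableSet).2 (integrableOn_const hK.measure_ne_top)) ?_)
    (.of_forall fun z => ?_)
  · simpa only [sq, id] using
      cs_int (cs_mul_l (contDiff_id.mul (hΦ n).1) (cs_mul_l contDiff_id (hΦ n)))
  · have e : Φ n (be z) * h z - pf (rs h) (cx (Φ n)) z = Φ n (be z) * (h z - rs h (pl z)) := by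
      simp only [pf, cx]; ring
    simp only [e]
    by_cases k : pl z ∈ K
    · rw [indicator_of_mem k, norm_mul, Complex.norm_real, Real.norm_eq_abs,
        ← sq_abs (be z * _), ← sq_abs M, ← mul_pow, abs_mul]
      refine pow_le_pow_left₀ (by positivity) ?_ 2
      have := mul_le_mul_of_nonneg_left ((hM z).trans
        (mul_le_mul_of_nonneg_right (le_abs_self M) (abs_nonneg _))) (abs_nonneg (Φ n (be z)))
      linarith
    · have a1 : h z = 0 := image_eq_zero_of_notMem_tsupport fun j => k ⟨_, j, rfl⟩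
      have a2 : rs h (pl z) = 0 :=
        image_eq_zero_of_notMem_tsupport (f := h) fun j => k ⟨_, j, pl_pt _ _ _⟩
      simp [indicator_of_notMem k, a1, a2]

lemma mem_cone {r : ℝ} (hr : 0 < r) (z : V) :
    z - -(1 / (2 * r)) • vb ∈ Fc ↔ 0 < 1 + 2 * r * be z ∧ 0 < al z + r * mu z := by
  have e1 : be (z - -(1 / (2 * r)) • vb) = (1 + 2 * r * be z) / (2 * r) := by
    simp only [be_sub, be_smul, be_vb]; field_simp; ring
  have e2 : mu (z - -(1 / (2 * r)) • vb) = (al z + r * mu z) / r := by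
    simp only [mu_eq, be_sub, be_smul, be_vb, al_sub, al_smul, al_vb, tx_sub, tx_smul, tx_vb,
      smul_zero, sub_zero]
    field_simp; ring
  rw [mem_Fc, e1, e2, div_pos_iff_of_pos_right (by positivity), div_pos_iff_of_pos_right hr]

lemma mem_Rc {r : ℝ} (hr : 0 < r) (z : V) :
    z ∈ Rc r 0 ↔ be z < 0 ∧ z - -(1 / (2 * r)) • vb ∈ Fc := by
  rw [mem_cone hr, Rc, mem_setOf_eq, sub_zero]
  rfl

/-- **Solutions of the wave equation in a cut cone with vanishing trace on the plane vanish.** -/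
theorem core (uq : UQ) {b : Fn} (hb : MemLp b 2) {r : ℝ} (hr : 0 < r)
    (h1 : ∀ f, In (Rc r 0) f → ∫ z, b z * box f z = 0) {Φ : ℕ → ℝ → ℝ} {C : ℝ}
    (hΦ : ∀ n, Tst (Φ n) ∧ tsupport (Φ n) ⊆ Ioo (-(1 / ((n : ℝ) + 1))) 0 ∧ ∫ t, Φ n t = 1 ∧
      ∫ t, |Φ n t| ≤ C) (h2 : Tendsto (fun n => ∫ t, (t * Φ n t) ^ 2) atTop (𝓝 0))
    (h3 : ∀ g : P3 → ℂ, Dc g → tsupport g ⊆ {y | r * d2 y.2 y.2 < y.1} →
      Tendsto (fun n => ∫ z, b z * dv va (pf g (cx (Φ n))) z) atTop (𝓝 0))
    {f : Fn} (hf : In (Rc r 0) f) : ∫ z, b z * f z = 0 := by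
  have mb : MeasurableSet {z : V | be z < 0} := measurableSet_lt meas_be measurable_const
  have ib : ∀ {u : Fn}, Dc u → Integrable fun z => b z * u z := fun hu =>
    hb.integrable_mul (hu.1.continuous.memLp_of_hasCompactSupport (p := 2) hu.2)
  have key := uq ({z | be z < 0}.indicator b) (-(1 / (2 * r)) • vb) (hb.indicator mb) ?_ ?_ f
    (in_mono hf fun z hz => ((mem_Rc hr z).1 hz).2)
  · rw [← key]
    refine integral_congr_ae (.of_forall fun z => ?_)
    by_cases k : z ∈ tsupport f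
    · simp only [indicator_of_mem (show z ∈ {z | be z < 0} from ((mem_Rc hr z).1 (hf.2.2 k)).1)]
    · simp only [image_eq_zero_of_notMem_tsupport k, mul_zero]
  · intro u hu
    have du := in_dc hu
    have dd := in_dc (in_dv va hu)
    have hP : ∀ n, ContDiff ℝ ∞ (cx (Ps (Φ n))) := fun n =>
      Complex.ofRealCLM.contDiff.comp (Ps_smooth (hΦ n).1)
    have hP' : ∀ n t, deriv (cx (Ps (Φ n))) t = -(Φ n t : ℂ) := fun n t =>
      (Ps_der (hΦ n).1 t).ofReal_comp.deriv.trans (Complex.ofReal_neg _)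
    have a1 : ∀ n, ∫ z, b z * (Ps (Φ n) (be z) * box u z) =
        2 * ((∫ z, b z * (Φ n (be z) * dv va u z - pf (rs (dv va u)) (cx (Φ n)) z)) +
          ∫ z, b z * dv va (pf (rs u) (cx (Φ n))) z) := fun n => by
      have i1 := in_rmul ((Ps_smooth (hΦ n).1).comp smooth_be) hu
      have i2 : Dc fun z => Φ n (be z) * dv va u z :=
        in_dc (in_rmul ((hΦ n).1.1.comp smooth_be) (in_dv va hu))
      have i0 : Dc (cx (Φ n)) := dc_cx (hΦ n).1
      have i3 := dc_pf (dc_rs dd) i0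
      have i4 : Dc fun z => Ps (Φ n) (be z) * box u z :=
        in_dc (in_rmul ((Ps_smooth (hΦ n).1).comp smooth_be) (in_box hu))
      obtain ⟨d, b1, b2⟩ := Ps_zero (hΦ n).1 fun t ht => ((hΦ n).2.1 ht).2
      have b3 := h1 (fun z => cx (Ps (Φ n)) (be z) * u z) ⟨i1.1, i1.2.1, fun z hz =>
        (mem_Rc hr z).2 ⟨(tsupp_sub (isClosed_le cont_be continuous_const) (fun z k =>
          (not_lt.1 fun j => k (by simp [cx, b2 _ j]) : be z ≤ d)) hz).trans_lt b1, i1.2.2 hz⟩⟩
      simp only [box_cut (hP n) du.1, hP'] at b3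
      rw [dv_pf_a ((dc_rs du).1.differentiable (by simp)) (i0.1.differentiable (by simp)),
        funext (da_rs du), ← integral_add (ib (cs_sub i2 i3)) (ib i3), ← integral_const_mul,
        ← sub_eq_zero, ← b3]
      refine (integral_sub (ib i4) (((ib (cs_sub i2 i3)).add (ib i3)).const_mul 2)).symm.trans
        (integral_congr_ae (.of_forall fun z => ?_))
      simp only [cx, Pi.add_apply]
      ring
    have a2 := ((thin hb dd (fun n => (hΦ n).1) h2).add (h3 (rs u) (dc_rs du) fun y hy => by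
      have := ((mem_cone hr _).1 (hu.2.2 (tsupport_rs u hy))).2
      simpa [mu_pt] using this)).const_mul 2
    simp only [← a1, add_zero, mul_zero] at a2
    refine tendsto_nhds_unique (tendsto_integral_of_dominated_convergence
      (fun z => C * ‖b z * box u z‖) (fun n => (ib (in_dc (in_rmul
        ((Ps_smooth (hΦ n).1).comp smooth_be) (in_box hu)))).1)
      ((ib (in_dc (in_box hu))).norm.const_mul C) (fun n => .of_forall fun z => ?_)
      (.of_forall fun z => ?_)) a2
    · rw [mul_left_comm, norm_mul, Complex.norm_real]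
      exact mul_le_mul_of_nonneg_right ((Ps_le (hΦ n).1 _).trans (hΦ n).2.2.2) (norm_nonneg _)
    · refine tendsto_const_nhds.congr' ?_
      by_cases k : be z < 0
      · filter_upwards [tendsto_one_div_add_atTop_nhds_zero_nat.eventually_lt_const
          (neg_pos.2 k)] with n hn
        rw [Function.comp_apply, Ps_one (hΦ n).2.1 (le_neg.1 hn.le), (hΦ n).2.2.1,
          indicator_of_mem (show z ∈ {z | be z < 0} from k), Complex.ofReal_one, one_mul]
      · refine .of_forall fun n => ?_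
        obtain ⟨d, b1, b2⟩ := Ps_zero (hΦ n).1 fun t ht => ((hΦ n).2.1 ht).2
        simp only [Function.comp_apply, b2 _ (b1.trans_le (not_lt.1 k)),
          indicator_of_notMem (show z ∉ {z | be z < 0} from k), Complex.ofReal_zero, zero_mul,
          mul_zero]
  · intro u hu
    refine (integral_congr_ae (.of_forall fun z => ?_)).trans (integral_zero _ _)
    by_cases k : z ∈ tsupport u
    · simp only [indicator_of_notMem (show z ∉ {z | be z < 0} from (hu.2.2 k).2.not_gt), zero_mul]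
    · simp only [image_eq_zero_of_notMem_tsupport k, mul_zero]

end Vale.Agent.P352X.Dd

end
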